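import Vale.Agent.P144Y.H.Lap
import Vale.Agent.P144S.H.Ex
import Vale.Agent.P144S.W.Wick

/-!
Existence of the `H`-function on the graph of the cells of an arbitrary finite set, uniqueness of
the solutions without sources and the Wick rule.
-/

namespace Vale.Agent.P144Y.H

open Finset Vale.Agent.P144
open Vale.Agent.P144S.H (quadV quadH sub_Vx)
open Vale.Agent.P144S.W (Ph Ph_spr Tl Xl QQ_pos)
open Vale.Agent.P144T (self_cnr)
open Vale.Agent.P144.AL (lap cnr mem_cnr mass_any zero_of_lap ep el fcs sps fcs_cons sps_cons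
  Pf)

section

variable {P : Finset Site} {τ θ A B C D : Site → ℝ} (h : Spr P τ θ A B C D)

include h

/-- The `H`-function exists. -/
theorem exists_H : ∃ Hs Hf : Site → ℝ, IsH A B C D Hs Hf := by
  obtain ⟨M, hM⟩ : ∃ M : ℕ, Vx P ⊆ box M := (H436.subset_box _).exists
  have hout : ∀ x : Site, (M:ℤ) < x.2 → x ∉ Vx P := by
    intro x hx hxΛ
    have := hM hxΛ
    rw [H436.mem_box, abs_le, abs_le] at this
    lia
  obtain ⟨Hf, hHf⟩ : ∃ Hf : Site → ℝ, ∀ i j : ℤ, Hf (i, j) =
      ∑ y ∈ Finset.Ico j ((M:ℤ) + 1), (A (i, y + 1) ^ 2 - C (i, y) ^ 2) :=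
    ⟨fun f => ∑ y ∈ Finset.Ico f.2 ((M:ℤ) + 1), (A (f.1, y + 1) ^ 2 - C (f.1, y) ^ 2),
      fun _ _ => rfl⟩
  have step : ∀ i j : ℤ, Hf (i, j) = Hf (i, j + 1) + A (i, j + 1) ^ 2 - C (i, j) ^ 2 := by
    intro i j
    rw [hHf, hHf]
    by_cases hj : j < (M:ℤ) + 1
    · have : Finset.Ico j ((M:ℤ) + 1) = insert j (Finset.Ico (j + 1) ((M:ℤ) + 1)) := by
        ext y; simp only [mem_Ico, mem_insert]; lia
      rw [this, sum_insert (by simp)]
      ring
    · rw [Finset.Ico_eq_empty (by lia), Finset.Ico_eq_empty (by lia),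
        h.zA i (j + 1) (hout _ (by simp only; lia)), h.zC i j (hout _ (by simp only; lia))]
      simp
  have high : ∀ i j : ℤ, (M:ℤ) < j → Hf (i, j) = 0 := by
    intro i j hj
    rw [hHf, Finset.Ico_eq_empty (by lia)]
    simp
  have horz : ∀ i j : ℤ, Hf (i + 1, j) - Hf (i, j) = B (i, j) ^ 2 - A (i + 1, j) ^ 2 := by
    intro i j
    have key : ∀ n : ℕ, ∀ j : ℤ, (M:ℤ) + 1 - n ≤ j →
        Hf (i + 1, j) - Hf (i, j) = B (i, j) ^ 2 - A (i + 1, j) ^ 2 := by
      intro n
      induction n with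
      | zero =>
        intro j hj
        rw [high _ _ (by lia), high _ _ (by lia), h.zB i j (hout _ (by simp only; lia)),
          h.zA (i + 1) j (hout _ (by simp only; lia))]
        simp
      | succ n ih =>
        intro j hj
        by_cases hj' : (M:ℤ) + 1 - n ≤ j
        · exact ih j hj'
        · have e := ih (j + 1) (by lia)
          have e1 := step (i + 1) j
          have e2 := step i j
          have e3 := quadV h i j
          have e4 := quadH h i j
          linarith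
    exact key ((M:ℤ) + 1 - j).toNat j (by lia)
  have hb : ∀ i j : ℤ, Hf (i + 1, j) + A (i + 1, j) ^ 2 - Hf (i, j) = B (i, j) ^ 2 := by
    intro i j; linarith [horz i j]
  have hcc : ∀ i j : ℤ, Hf (i, j + 1) + A (i, j + 1) ^ 2 - Hf (i, j) = C (i, j) ^ 2 := by
    intro i j; linarith [step i j]
  have hd : ∀ i j : ℤ, Hf (i + 1, j + 1) + A (i + 1, j + 1) ^ 2 - Hf (i, j) = D (i, j) ^ 2 := by
    intro i j
    have e1 := hb i (j + 1)
    have e2 := step i j
    have e3 := quadV h i j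
    linarith
  refine ⟨fun v => Hf v + A v ^ 2, Hf, fun i j => by simp, hb, hcc, hd, M + 1, ?_⟩
  have hz : ∀ v ∉ box M, v ∉ Vx P := fun v hv b => hv (hM b)
  have side : ∀ i j : ℤ, (i + 1 < -(M : ℤ) ∨ (M : ℤ) < i) → Hf (i, j) = 0 := by
    intro i j hi
    rw [hHf]
    refine sum_eq_zero fun y _ => ?_
    rw [h.zA i (y + 1) (hz _ ?_), h.zC i y (hz _ ?_)]
    · simp
    all_goals
      rw [H436.mem_box, abs_le, abs_le]
      simp only
      lia
  have low : ∀ j : ℤ, j < -(M : ℤ) → ∀ n : ℕ, Hf ((M : ℤ) + 1 - n, j) = 0 := by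
    intro j hj n
    induction n with
    | zero => exact side _ _ (by simp)
    | succ n ih =>
      have e := horz ((M : ℤ) + 1 - (n + 1 : ℕ)) j
      rw [h.zB _ j (hz _ ?_), h.zA _ j (hz _ ?_), show (M : ℤ) + 1 - (n + 1 : ℕ) + 1 =
        (M : ℤ) + 1 - n by push_cast; ring, ih] at e
      · linarith
      all_goals
        rw [H436.mem_box, abs_le, abs_le]
        simp only
        lia
  rintro ⟨i, j⟩ hv
  rw [h.zA i j (hz _ fun b => hv (H436.box_mono (Nat.le_succ M) b))]
  rw [H436.mem_box, abs_le, abs_le] at hv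
  simp only at hv ⊢
  have : Hf (i, j) = 0 := by
    by_cases h1 : i + 1 < -(M : ℤ) ∨ (M : ℤ) < i
    · exact side i j h1
    · by_cases h2 : (M : ℤ) < j
      · exact high i j h2
      · have := low j (by lia) ((M : ℤ) + 1 - i).toNat
        rwa [show (M : ℤ) + 1 - ((M : ℤ) + 1 - i).toNat = i by lia] at this
  rw [this]
  norm_num

/-- A common finite support. -/
theorem supp {Hs Hf : Site → ℝ} (hH : IsH A B C D Hs Hf) (R : Finset Site) : ∃ M : ℕ,
    Vx P ∪ R ⊆ box M ∧ (∀ x ∉ box M, Hs x = 0) ∧ (∀ x ∉ box M, Hf x = 0) ∧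
      ∀ x ∉ box M, hat P Hs Hf x = 0 := by
  obtain ⟨M, hM⟩ := hH.far
  obtain ⟨K, hK⟩ : ∃ K : ℕ, Vx P ∪ R ⊆ box K := (H436.subset_box (Vx P ∪ R)).exists
  have h1 : ∀ x ∉ box (M + K), Hs x = 0 ∧ Hf x = 0 := fun x hx => by
    have e := hM x fun b => hx (H436.box_mono (by lia) b)
    exact ⟨e, (eq_out h hH (self_cnr x) fun b =>
      hx (H436.box_mono (by lia) (hK (mem_union_left _ b)))).trans e⟩
  have h2 : ∀ x ∉ box (M + K + 1), x ∉ box (M + K) := fun x hx b =>
    hx (H436.box_mono (by lia) b)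
  refine ⟨M + K + 1, hK.trans (H436.box_mono (by lia)), fun x hx => (h1 x (h2 x hx)).1,
    fun x hx => (h1 x (h2 x hx)).2, ?_⟩
  rintro ⟨i, j⟩ hx
  have k : ∀ a b : ℤ, |a - i| ≤ 1 → |b - j| ≤ 1 → Hs (a, b) = 0 ∧ Hf (a, b) = 0 := by
    intro a b e1 e2
    refine h1 _ fun hh => hx ?_
    rw [H436.mem_box, abs_le, abs_le] at hh ⊢
    rw [abs_le] at e1 e2
    push_cast at hh ⊢
    lia
  have k0 := k i j (by simp) (by simp)
  have k1 := k (i + 1) j (by simp) (by simp)
  have k2 := k (i - 1) j (by simp) (by simp)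
  have k3 := k i (j + 1) (by simp) (by simp)
  have k4 := k i (j - 1) (by simp) (by simp)
  unfold hat
  simp only
  rw [k0.1, k0.2, k1.1, k2.1, k2.2, k3.1, k4.1, k4.2]
  ring

/-- A solution without inserted spins vanishes. -/
theorem unique (hθ : ∀ i j : ℤ, θ (i - 1, j) = θ (i - 1, j - 1)) (f : Site) :
    A f = 0 ∧ B f = 0 ∧ C f = 0 ∧ D f = 0 := by
  obtain ⟨Hs, Hf, hH⟩ := exists_H h
  obtain ⟨N, -, -, s2, hout⟩ := supp h hH ∅
  have hlo : ∀ x, hat P Hs Hf x - Hs x ≤ lap (hat P Hs Hf) x := fun x =>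
    lap_hat h hH (hθ x.1 x.2)
  have hnn : ∀ x, 0 ≤ lap (hat P Hs Hf) x := fun x => by linarith [hlo x, le_hat hH P x]
  have hl : ∀ x, lap (hat P Hs Hf) x = 0 := by
    intro x
    have := mass_any (P := ∅) hout (fun x _ => hnn x) {x}
    rw [sum_singleton, sum_empty, mul_zero] at this
    exact abs_nonpos_iff.1 this
  have hs0 : ∀ x, Hs x = 0 := fun x => by
    linarith [hlo x, le_hat hH P x, hl x, zero_of_lap hout hl x]
  have z : ∀ x : ℝ, 0 - 0 = x ^ 2 → x = 0 := fun x hx =>
    pow_eq_zero_iff (by norm_num) |>.1 (by linarith : x ^ 2 = 0)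
  have key : ∀ n : ℕ, ∀ i j : ℤ, (N : ℤ) + 1 - n ≤ j → Hf (i, j) = 0 := by
    intro n
    induction n with
    | zero =>
      intro i j hj
      refine s2 _ fun hh => ?_
      rw [H436.mem_box, abs_le, abs_le] at hh
      simp only at hh
      lia
    | succ n ih =>
      intro i j hj
      by_cases hj' : (N : ℤ) + 1 - n ≤ j
      · exact ih i j hj'
      · have h1 := ih i (j + 1) (by lia)
        have ea := hH.a i (j + 1)
        have eb := hH.b i (j + 1)
        have ec := hH.c i j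
        rw [hs0, h1] at ea eb
        by_cases hh : ((i, j) : Site) ∈ P ∨ ((i, j + 1) : Site) ∈ P
        · rw [hs0, (h.V i j hh).1, z _ ea, z _ eb] at ec
          linarith
        · rw [← eqV h hH (fun b => hh (Or.inl b)) fun b => hh (Or.inr b), h1]
  obtain ⟨i, j⟩ := f
  have hf : Hf (i, j) = 0 := key ((N : ℤ) + 1 - j).toNat i j (by lia)
  have ha := hH.a i j
  have hb := hH.b i j
  have hc := hH.c i j
  have hd := hH.d i j
  rw [hs0, hf] at ha hb hc hd
  exact ⟨z _ ha, z _ hb, z _ hc, z _ hd⟩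

end

/-- The Wick rule. -/
theorem wick (P : Finset Site) (R : Multiset Site) (c : AL.Cn) (l : List AL.Cn)
    (hl : ∀ c' ∈ c :: l, c'.1 ∈ cnr c'.2 ∧ c'.1 ∈ Vx P) (hnd : (c :: l).Nodup) :
    Wf P R (c :: l) =
      ∑ j : Fin l.length, (-1) ^ (j : ℕ) * Wf P R [c, l[j]] *
        Wf P R (l.eraseIdx j) := by
  have hl' : ∀ c' ∈ l, c'.1 ∈ cnr c'.2 ∧ c'.1 ∈ Vx P := fun c' h =>
    hl c' (List.mem_cons_of_mem _ h)
  have hc := hl c (List.mem_cons_self ..)
  have hnd' := List.nodup_cons.1 hnd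
  have h := unique (Ph_spr P R l hl' hnd'.2) (fun _ _ => rfl) c.2
  have h0 : Ph P R l c = 0 := by
    obtain ⟨v, f⟩ := c
    rcases mem_cnr.1 hc.1 with h1 | h1 | h1 | h1 <;> simp only at h1 <;> subst h1
    · exact h.1
    · exact h.2.1
    · exact h.2.2.1
    · exact h.2.2.2
  have hT : ∀ l' : List AL.Cn, Tl P R l' c = (l'.map (ep c)).prod *
      (QQ P (c.2 ::ₘ (fcs l' + R)) (c.1 ::ₘ sps l') / QQ P R 0) := by
    intro l'
    unfold Tl Xl
    rw [if_pos hc.2]
  have h1 : el l * Tl P R l c = Wf P R (c :: l) := by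
    rw [hT]
    unfold Wf
    rw [fcs_cons, sps_cons, Multiset.cons_add]
    simp only [el]
    ring
  have h2 : ∀ j : Fin l.length, Tl P R [l[j]] c = Wf P R [c, l[j]] := by
    intro j
    rw [hT]
    unfold Wf
    rw [fcs_cons c, sps_cons c, Multiset.cons_add]
    simp only [el, List.map_nil, List.prod_nil, List.map_cons, List.prod_cons]
    ring
  unfold Ph at h0
  rw [h1] at h0
  simp only [h2] at h0
  rw [sub_eq_zero.1 h0]
  exact sum_congr rfl fun j _ => by ring

/-- The correlations of fermions are Pfaffians. -/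
theorem Wf_Pf (P : Finset Site) (R : Multiset Site) (l : List AL.Cn)
    (hl : ∀ c ∈ l, c.1 ∈ cnr c.2 ∧ c.1 ∈ Vx P) (hnd : l.Nodup) (hev : Even l.length) :
    Wf P R l = Pf (fun c c' => Wf P R [c, c']) l := by
  induction hn : l.length using Nat.strong_induction_on generalizing l with
  | _ n ih =>
    cases l with
    | nil =>
      rw [Pf]
      unfold Wf
      have e1 : fcs ([] : List AL.Cn) + R = R := by simp [fcs]
      have e2 : sps ([] : List AL.Cn) = 0 := by simp [sps]
      rw [e1, e2]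
      simp only [el, one_mul]
      exact div_self (QQ_pos _ R).ne'
    | cons c l =>
      rw [wick P R c l hl hnd, Pf]
      refine sum_congr rfl fun j _ => ?_
      rw [ih (l.eraseIdx j).length ?_ _ ?_ ?_ ?_ rfl]
      · have := j.2
        rw [← hn, List.length_eraseIdx, if_pos j.2, List.length_cons]; omega
      · exact fun c' h => hl c' (List.mem_cons_of_mem _ ((List.eraseIdx_sublist l j).subset h))
      · exact (List.nodup_cons.1 hnd).2.sublist (List.eraseIdx_sublist l j)
      · have h2 : (l.eraseIdx j).length + 2 = (c :: l).length := by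
          have := j.2
          rw [List.length_eraseIdx, if_pos j.2, List.length_cons]; omega
        rw [← h2] at hev
        exact (Nat.even_add.1 hev).2 even_two

theorem sex : SEx := fun _ _ _ _ _ _ _ h => exists_H h

theorem sunq : SUnq := fun _ _ _ _ _ _ _ h hθ => unique h hθ

theorem spf : SPf := fun P R l hl hnd hev => Wf_Pf P R l hl hnd hev

end Vale.Agent.P144Y.H
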