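import Vale.Agent.P144Y.H.Face

/-!
Masses of the cut-off `H`-function and the local `ℓ²` bound on the graph of the cells.
-/

namespace Vale.Agent.P144Y.H

open Finset Vale.Agent.P144
open Vale.Agent.P144.AL (lap cnr quad_nonneg)
open Vale.Agent.P144.H170 (Pt bx D mem_bx bx_mono lap_AL sq_two)
open Vale.Agent.P144.H135 (CT CT_zero CT_le_one bx_step' bx_step'')
open Vale.Agent.P144S.M (shift_le cutoff')

/-- Masses of the cut-off `H`-function. -/
theorem scut : SCut := by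
  classical
  intro P τ θ A B C E Hs Hf Q R G c n L h hH hE hn hL0 hQ hRG hG hin hLs hLf T
  obtain ⟨M, -, s1, s2, s3⟩ := supp h hH ∅
  have m2 : ∀ x ∈ bx c (8 * n), x ∈ P ∧ ((x.1 - 1, x.2 - 1) : Site) ∈ P := fun x hx =>
    ⟨hin x (bx_mono (by lia) hx), hin _ (by
      rw [mem_bx] at hx ⊢
      push_cast at hx ⊢
      lia)⟩
  have hθ : ∀ x : Site, x ∉ bx c n → θ (x.1 - 1, x.2) = θ (x.1 - 1, x.2 - 1) := fun x hx =>
    hE.θc x.1 x.2 fun h' => hx (hQ h')
  set w : Site → ℝ := fun x => hat P Hs Hf x - Hs x with hw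
  have w0 : ∀ x, 0 ≤ w x := fun x => sub_nonneg.2 (le_hat hH P x)
  have w1 : ∀ x ∉ bx c n, w x ≤ lap (hat P Hs Hf) x := fun x hx => lap_hat h hH (hθ x hx)
  have w2 : ∀ x ∈ bx c (8 * n), w x = 0 := fun x hx =>
    sub_eq_zero.2 (hat_in Hs Hf (m2 x hx).1 (m2 x hx).2)
  have w3 : ∀ x ∉ box (M + 1), w x = 0 := fun x hx => by
    have : x ∉ box M := fun h' => hx (H436.box_mono (by lia) h')
    simp only [hw]
    rw [s3 x this, s1 x this, sub_zero]
  have ct0 : ∀ x ∉ bx c (4 * n - 1), CT c (2 * n) x = 0 := fun x hx =>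
    CT_zero (by lia) fun h' => hx (bx_mono (by lia) h')
  have k1 := (cutoff' (c := c) hn (h := hat P Hs Hf) (M := 0) hL0 s3
    (fun x hx hx' => by rw [hat_in Hs Hf (m2 x hx).1 (m2 x hx).2]; exact hLs x hx hx')
    (fun x _ hx => (w0 x).trans (w1 x hx)) (le_of_eq (sum_eq_zero fun x hx =>
      max_eq_left (by linarith [w0 x, w1 x (mem_filter.1 hx).2])))).1
  have k2 : ∑ x ∈ box (M + 1), w x ≤ 2100 * L := by
    refine le_trans (sum_le_sum fun x _ => ?_) (k1.trans (by linarith))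
    by_cases hx : x ∈ bx c (8 * n)
    · rw [w2 x hx]
      exact mul_nonneg (by linarith [CT_le_one c (2 * n) x]) (abs_nonneg _)
    · rw [ct0 x fun h' => hx (bx_mono (by lia) h'), sub_zero, one_mul]
      exact (w1 x fun h' => hx (bx_mono (by lia) h')).trans (le_abs_self _)
  have k3 := cutoff' (c := c) hn (h := Hs) (M := 8400 * L) hL0 s1 hLs (fun x hx hx' => by
      have e := lapS_int h hH (m2 x hx).1 (m2 x hx).2
      rw [← hθ x hx'] at e
      rw [e]
      exact quad_nonneg _ _ _ _ _ (h.θ2 _)) (by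
      have a1 : ∀ x ∈ (box (M + 1)).filter (fun x => x ∉ bx c n), max 0 (-lap Hs x) ≤
          w (x.1 + 1, x.2) + w (x.1 - 1, x.2) + w (x.1, x.2 + 1) + w (x.1, x.2 - 1) := by
        intro x hx
        have b1 := w1 x (mem_filter.1 hx).2
        have b2 := w0 x
        have b3 := w0 (x.1 + 1, x.2)
        have b4 := w0 (x.1 - 1, x.2)
        have b5 := w0 (x.1, x.2 + 1)
        have b6 := w0 (x.1, x.2 - 1)
        refine max_le (by linarith) ?_
        simp only [hw] at b1 b2 ⊢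
        unfold lap at b1 ⊢
        linarith
      refine (sum_le_sum a1).trans ?_
      rw [sum_add_distrib, sum_add_distrib, sum_add_distrib]
      have c1 := shift_le w0 w3 ((box (M + 1)).filter fun x => x ∉ bx c n)
        (g := fun x => (x.1 + 1, x.2)) fun x y hxy => by
          simp only [Prod.mk.injEq] at hxy; exact Prod.ext (by lia) hxy.2
      have c2 := shift_le w0 w3 ((box (M + 1)).filter fun x => x ∉ bx c n)
        (g := fun x => (x.1 - 1, x.2)) fun x y hxy => by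
          simp only [Prod.mk.injEq] at hxy; exact Prod.ext (by lia) hxy.2
      have c3 := shift_le w0 w3 ((box (M + 1)).filter fun x => x ∉ bx c n)
        (g := fun x => (x.1, x.2 + 1)) fun x y hxy => by
          simp only [Prod.mk.injEq] at hxy; exact Prod.ext hxy.1 (by lia)
      have c4 := shift_le w0 w3 ((box (M + 1)).filter fun x => x ∉ bx c n)
        (g := fun x => (x.1, x.2 - 1)) fun x y hxy => by
          simp only [Prod.mk.injEq] at hxy; exact Prod.ext hxy.1 (by lia)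
      linarith)
  have nR : ∀ x, x ∉ bx c n → x ∉ G → x ∉ R := fun x hx hxG hR =>
    hx (hRG (mem_sdiff.2 ⟨hR, hxG⟩))
  have f1 : ∀ x, x ∉ bx c n → x ∈ bx c (8 * n) → lap Hf x ≤ 0 := fun x hx hx' =>
    lapf_np h hH hE (nR x hx fun h' => hG x h' hx') (m2 x hx').1
  set u : Site → ℝ := fun v => 3 * ((1 - CT c (2 * n) v) * |lap Hs v|) + 13 * w v with hu
  have u1 : ∀ v, 0 ≤ (1 - CT c (2 * n) v) * |lap Hs v| := fun v =>
    mul_nonneg (by linarith [CT_le_one c (2 * n) v]) (abs_nonneg _)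
  have u0 : ∀ v, 0 ≤ u v := fun v => by
    simp only [hu]
    linarith [u1 v, w0 v]
  have g1 : ∀ x ∈ (box (M + 1)).filter (fun x => x ∉ bx c n),
      max 0 (lap Hf x) ≤ ∑ v ∈ cnr x, u v := by
    intro x hx
    have hx1 := (mem_filter.1 hx).2
    have n0 : 0 ≤ ∑ v ∈ cnr x, u v := sum_nonneg fun v _ => u0 v
    refine max_le n0 ?_
    by_cases hxG : x ∈ G
    · refine ((lapf_le h hH (hE.inR _ (hE.sub hxG) x (by simp) (by simp))).trans
        (sqF_G h hH hE hxG)).trans ?_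
      rw [mul_sum]
      refine sum_le_sum fun v hv => ?_
      have : v ∉ bx c (4 * n - 1) := by
        intro hv'
        apply hG x hxG
        have hv2 := bx_mono (show 4 * n - 1 ≤ 4 * n by lia) hv'
        rw [AL.mem_cnr'] at hv
        rw [mem_bx] at hv2 ⊢
        push_cast at hv2 ⊢
        rcases hv with rfl | rfl | rfl | rfl <;> lia
      simp only [hu]
      rw [ct0 v this, sub_zero, one_mul]
      linarith [w0 v]
    · refine (lapf_reg h hH hE (nR x hx1 hxG)).trans ?_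
      rw [mul_sum]
      refine sum_le_sum fun v _ => ?_
      simp only [hu, hw]
      linarith [u1 v]
  have g2 := AL.sum_sum_cnr u0 (T := (box (M + 1)).filter fun x => x ∉ bx c n)
    (S := box (M + 1)) fun v hv => by
      simp only [hu]
      rw [AL.supp_lap s1 v hv, w3 v hv, abs_zero, mul_zero, mul_zero, mul_zero, add_zero]
  have g3 : ∑ v ∈ box (M + 1), u v ≤ 84000 * L := by
    simp only [hu]
    rw [sum_add_distrib, ← mul_sum, ← mul_sum]
    linarith [k3.1]
  have neg : ∀ x, lap (fun y => -Hf y) x = -lap Hf x := fun x => by unfold lap; ring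
  have k4 := (cutoff' (c := c) hn (h := fun y => -Hf y) (M := 336000 * L) hL0 (K := M)
    (fun x hx => by simp only [s2 x hx, neg_zero])
    (fun x hx hx' => by rw [abs_neg]; exact hLf x hx hx')
    (fun x hx hx' => by rw [neg]; linarith [f1 x hx' hx]) (by
      simp only [neg, neg_neg]
      linarith [sum_le_sum g1])).2 T
  have e : ∀ x, |lap (fun x => (1 - CT c (2 * n) x) * -Hf x) x| =
      |lap (fun x => (1 - CT c (2 * n) x) * Hf x) x| := fun x => by
    rw [← abs_neg]; congr 1; unfold lap; ring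
  rw [sum_congr rfl fun x _ => e x] at k4
  linarith [k3.2 T]


theorem sqV {P : Finset Site} {τ θ A B C D' Hs Hf : Site → ℝ} (h : Spr P τ θ A B C D')
    (hH : IsH A B C D' Hs Hf) (i j : ℤ) (hh : ((i, j) : Site) ∈ P ∨ ((i, j + 1) : Site) ∈ P) :
    A (i, j + 1) ^ 2 + B (i, j + 1) ^ 2 ≤
      3 * (|Hf (i, j + 1) - Hf (i, j)| + |Hs (i + 1, j + 1) - Hs (i, j + 1)|) ∧
    C (i, j) ^ 2 + D' (i, j) ^ 2 ≤
      3 * (|Hf (i, j + 1) - Hf (i, j)| + |Hs (i + 1, j + 1) - Hs (i, j + 1)|) := by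
  have ha := hH.a i (j + 1)
  have hb := hH.b i (j + 1)
  have hc := hH.c i j
  have hd := hH.d i j
  obtain ⟨h1, h2⟩ := h.V i j hh
  have ht := h.τ2 (i, j)
  set t := τ (i, j) with htt
  have s2 : √2 * √2 = 2 := Real.mul_self_sqrt (by norm_num)
  constructor
  · have e1 : Hf (i, j + 1) - Hf (i, j) = A (i, j + 1) ^ 2 + B (i, j + 1) ^ 2 -
        2 * √2 * (t * (A (i, j + 1) * B (i, j + 1))) := by
      rw [h1] at hc
      linear_combination hc - ha + (A (i, j + 1)) ^ 2 * s2 + B (i, j + 1) ^ 2 * ht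
    have e2 : Hs (i + 1, j + 1) - Hs (i, j + 1) = -(A (i, j + 1) ^ 2 - B (i, j + 1) ^ 2) := by
      linear_combination hb - ha
    rw [e1, e2, abs_neg]
    exact sq_two ht
  · have e3 : A (i, j + 1) = √2 * C (i, j) + t * D' (i, j) := by
      rw [h1, h2]; linear_combination (-A (i, j + 1)) * s2 + A (i, j + 1) * ht
    have e1 : Hf (i, j + 1) - Hf (i, j) = -(C (i, j) ^ 2 + D' (i, j) ^ 2 -
        2 * √2 * (-t * (C (i, j) * D' (i, j)))) := by
      rw [e3] at ha
      linear_combination hc - ha - (C (i, j)) ^ 2 * s2 - D' (i, j) ^ 2 * ht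
    have e2 : Hs (i + 1, j + 1) - Hs (i, j + 1) = -(C (i, j) ^ 2 - D' (i, j) ^ 2) := by
      linear_combination hd - hc
    rw [e1, e2, abs_neg, abs_neg]
    exact sq_two (by rw [neg_mul_neg]; exact ht)

theorem ssq : SSq := by
  intro P Λ τ θ A B C E Hs Hf c m U W M h hH hU0 hW0 hU hW hM1 hM2 c' r T hT
  simp only [H170.lap_AL] at hM1 hM2
  have DU : ∀ e : Pt, (e = (1, 0) ∨ e = (0, 1)) → ∀ x, x ∉ bx c (m + 1) →
      D e Hs x = D e U x ∧ D e Hf x = D e W x := by
    intro e he x hx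
    have h1 : x ∉ bx c m := fun h' => hx (bx_mono (by lia) h')
    have h2 : x + e ∉ bx c m := fun h' => hx (bx_step' he h')
    unfold D
    rw [hU _ h1, hU _ h2, hW _ h1, hW _ h2]
    exact ⟨rfl, rfl⟩
  have hs : ∀ x ∈ T, x ∉ bx c (m + 1) ∧ x - (0, 1) ∉ bx c (m + 1) ∧ x + (0, 1) ∉ bx c (m + 1) := by
    intro x hx
    have h1 := (hT x hx).2.1
    exact ⟨fun h' => h1 (bx_mono (by lia) h'), fun h' => h1 (bx_step'' (Or.inr rfl) h'),
      fun h' => h1 (bx_step' (Or.inr rfl) h')⟩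
  have k1 : ∀ x ∈ T, A x ^ 2 + B x ^ 2 ≤ 3 * (|D (0, 1) W (x - (0, 1))| + |D (1, 0) U x|) := by
    rintro ⟨i, j⟩ hx
    obtain ⟨a1, a2, a3⟩ := hs _ hx
    rw [← (DU (0, 1) (Or.inr rfl) _ a2).2, ← (DU (1, 0) (Or.inl rfl) _ a1).1]
    have := (sqV h hH i (j - 1) (Or.inr (by simpa using (hT _ hx).2.2))).1
    rw [sub_add_cancel] at this
    unfold D
    simpa using this
  have k2 : ∀ x ∈ T, C x ^ 2 + E x ^ 2 ≤ 3 * (|D (0, 1) W x| + |D (1, 0) U (x + (0, 1))|) := by
    rintro ⟨i, j⟩ hx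
    obtain ⟨a1, a2, a3⟩ := hs _ hx
    rw [← (DU (0, 1) (Or.inr rfl) _ a1).2, ← (DU (1, 0) (Or.inl rfl) _ a3).1]
    have := (sqV h hH i j (Or.inl (hT _ hx).2.2)).2
    unfold D
    simpa using this
  have s0 : ∀ F : Site → ℝ, (∀ x, 0 ≤ F x) → ∀ e : Pt, (e = (0, 1) ∨ e = 0 ∨ e = -(0, 1)) →
      ∑ x ∈ T, F (x + e) ≤ ∑ x ∈ bx c' (r + 1), F x := by
    intro F hF e he
    have e1 : ∑ x ∈ T, F (x + e) = ∑ x ∈ T.image (fun x => x + e), F x := by
      rw [sum_image fun x _ y _ hxy => by simpa using hxy]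
    rw [e1]
    refine sum_le_sum_of_subset_of_nonneg ?_ fun _ _ _ => hF _
    intro x hx
    obtain ⟨y, hy, rfl⟩ := mem_image.1 hx
    have := (hT y hy).1
    rw [mem_bx] at this ⊢
    rcases he with rfl | rfl | rfl <;> simp <;> lia
  have aux : ∀ (u : Site → ℝ), (∀ x ∉ Λ, u x = 0) →
      (∀ T : Finset Site, ∑ w ∈ T, |H170.lap u w| ≤ M) → ∀ e : Site, (e = (1, 0) ∨ e = (0, 1)) →
      ∑ x ∈ bx c' (r + 1), |D e u x| ≤ 96 * ((r:ℝ) + 2) * M := by
    intro u hu hT e he
    obtain ⟨K, hK⟩ : ∃ K : ℕ, Λ ⊆ box K := (H436.subset_box Λ).exists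
    have hs := AL.supp_lap (u := u) (M := K) fun x hx => hu x fun h => hx (hK h)
    have := H436.grad_sum (u := u) (Λ := Λ) (S := box (K + 1)) hu
      (fun x hx => by rw [H170.lap_eq, ← H170.lap_AL]; exact hs x hx) c' (r + 1) he
    have h3 : ∑ w ∈ box (K + 1), |H436.lap u w| ≤ M := by
      have := hT (box (K + 1))
      simp only [H170.lap_eq]
      exact this
    calc ∑ x ∈ bx c' (r + 1), |D e u x| ≤ 96 * (((r + 1 : ℕ) : ℝ) + 1) * ∑ w ∈ box (K + 1),
          |H436.lap u w| := this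
      _ ≤ 96 * (((r + 1 : ℕ) : ℝ) + 1) * M := mul_le_mul_of_nonneg_left h3 (by positivity)
      _ = _ := by push_cast; ring
  have h1 := aux U hU0 hM1 (1, 0) (Or.inl rfl)
  have h2 := aux W hW0 hM2 (0, 1) (Or.inr rfl)
  have t1 := s0 (fun x => |D (0, 1) W x|) (fun _ => abs_nonneg _) (-(0, 1)) (by simp)
  have t2 := s0 (fun x => |D (1, 0) U x|) (fun _ => abs_nonneg _) 0 (by simp)
  have t3 := s0 (fun x => |D (0, 1) W x|) (fun _ => abs_nonneg _) 0 (by simp)
  have t4 := s0 (fun x => |D (1, 0) U x|) (fun _ => abs_nonneg _) (0, 1) (by simp)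
  simp only [add_zero] at t2 t3
  calc _ ≤ ∑ x ∈ T, (3 * (|D (0, 1) W (x + -(0, 1))| + |D (1, 0) U x|) +
        3 * (|D (0, 1) W x| + |D (1, 0) U (x + (0, 1))|)) := by
        refine sum_le_sum fun x hx => ?_
        have := k1 x hx
        have := k2 x hx
        rw [← sub_eq_add_neg]
        linarith
    _ = 3 * (∑ x ∈ T, |D (0, 1) W (x + -(0, 1))| + ∑ x ∈ T, |D (1, 0) U x|) +
        3 * (∑ x ∈ T, |D (0, 1) W x| + ∑ x ∈ T, |D (1, 0) U (x + (0, 1))|) := by
        rw [sum_add_distrib, ← mul_sum, sum_add_distrib, ← mul_sum, sum_add_distrib]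
    _ ≤ _ := by linarith

end Vale.Agent.P144Y.H
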