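import Vale.Agent.P144Y.H.Ex
import Vale.Agent.P144S.M.Face

/-!
Upper bounds of the Laplacian of `Hf` at a disorder and outside the cells.
-/

namespace Vale.Agent.P144Y.H

open Finset Vale.Agent.P144
open Vale.Agent.P144S.H (ih_in ih_out iv_in iv_out)
open Vale.Agent.P144S.M (cross_le)
open Vale.Agent.P144.AL (lap cnr mem_cnr quad_nonneg quad_lower quad_id four_cycle sqF sqF_nonneg
  sum_cnr sqS sqS_nonneg)

theorem hat_in {P : Finset Site} (Hs Hf : Site → ℝ) {x : Site} (h1 : x ∈ P)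
    (h2 : ((x.1 - 1, x.2 - 1) : Site) ∈ P) : hat P Hs Hf x = Hs x := by
  obtain ⟨i, j⟩ := x
  unfold hat
  simp only at h2 ⊢
  rw [ih_in (Or.inl h1), ih_in (Or.inr h2), iv_in (Or.inl h1), iv_in (Or.inr h2)]
  ring

section

variable {P : Finset Site} {τ θ A B C D Hs Hf : Site → ℝ} (h : Spr P τ θ A B C D)
  (hH : IsH A B C D Hs Hf)

include h hH

/-- The Laplacian of `Hs` at a site whose four edges are present. -/
theorem lapS_int {i j : ℤ} (h1 : ((i, j) : Site) ∈ P) (h2 : ((i - 1, j - 1) : Site) ∈ P) :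
    lap Hs (i, j) = 2 * (A (i, j) ^ 2 + B (i - 1, j) ^ 2 + C (i, j - 1) ^ 2 + D (i - 1, j - 1) ^ 2) -
      2 * √2 * (θ (i - 1, j) * (A (i, j) * B (i - 1, j)) -
        θ (i - 1, j - 1) * (C (i, j - 1) * D (i - 1, j - 1)) + A (i, j) * C (i, j - 1) +
        B (i - 1, j) * D (i - 1, j - 1)) := by
  have e1 := dN h hH (Or.inl h1)
  have e2 := dS h hH (Or.inr h2)
  have e3 := dE h hH (Or.inl h1)
  have e4 := dW h hH (Or.inr h2)
  unfold lap
  simp only
  linear_combination e1 + e2 + e3 + e4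

/-- The values at a face where the sign changes. -/
theorem branch_face {i j : ℤ}
    (mem : ∀ x y : ℤ, i - 1 ≤ x → x ≤ i + 2 → j - 1 ≤ y → y ≤ j + 2 → ((x, y) : Site) ∈ P)
    (t1 : θ (i - 1, j) = θ (i - 1, j - 1)) (t2 : θ (i, j) = θ (i, j - 1))
    (t3 : θ (i - 1, j + 1) = θ (i - 1, j)) (t4 : θ (i, j + 1) = θ (i, j))
    (hτ : τ (i, j) = -τ (i, j - 1)) :
    (6 - 4 * √2) * sqF A B C D (i, j) ≤
      lap Hs (i, j) + lap Hs (i + 1, j) + lap Hs (i, j + 1) + lap Hs (i + 1, j + 1) := by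
  have l1 := lapS_int h hH (i := i) (j := j) (mem _ _ (by lia) (by lia) (by lia) (by lia))
    (mem _ _ (by lia) (by lia) (by lia) (by lia))
  have l2 := lapS_int h hH (i := i + 1) (j := j) (mem _ _ (by lia) (by lia) (by lia) (by lia))
    (mem _ _ (by lia) (by lia) (by lia) (by lia))
  have l3 := lapS_int h hH (i := i) (j := j + 1) (mem _ _ (by lia) (by lia) (by lia) (by lia))
    (mem _ _ (by lia) (by lia) (by lia) (by lia))
  have l4 := lapS_int h hH (i := i + 1) (j := j + 1) (mem _ _ (by lia) (by lia) (by lia) (by lia))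
    (mem _ _ (by lia) (by lia) (by lia) (by lia))
  rw [← t1] at l1
  rw [add_sub_cancel_right, ← t2] at l2
  rw [add_sub_cancel_right, t3] at l3
  rw [add_sub_cancel_right, add_sub_cancel_right, t4] at l4
  rw [(quad_id _ _ _ _ _ (h.θ2 _)).1] at l1
  rw [(quad_id _ _ _ _ _ (h.θ2 _)).2] at l2
  rw [(quad_id _ _ _ _ _ (h.θ2 _)).2] at l3
  rw [(quad_id _ _ _ _ _ (h.θ2 _)).1] at l4
  have m0 : ((i, j) : Site) ∈ P := mem _ _ (by lia) (by lia) (by lia) (by lia)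
  have eN := h.V i j (Or.inl m0)
  have eS := h.V i (j - 1) (by rw [sub_add_cancel]; exact Or.inr m0)
  have eE := h.H i j (Or.inl m0)
  have eW := h.H (i - 1) j (by rw [sub_add_cancel]; exact Or.inr m0)
  rw [sub_add_cancel] at eS eW
  have q2 := sqrt2_sq
  have th1 := h.θ2 (i - 1, j)
  have th2 := h.θ2 (i, j)
  have ta := h.τ2 (i, j)
  -- first corner
  have f1 : √2 * A (i, j) - (θ (i - 1, j) * B (i - 1, j) + C (i, j - 1)) =
      -(C (i, j) * (-1) + τ (i, j - 1) * B (i, j) * (-1) + √2 * A (i, j)) := by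
    rw [eW.1, eS.1]
    linear_combination (-(√2 * A (i, j) - C (i, j))) * th1
  have f2 : √2 * B (i, j) - (θ (i, j) * A (i + 1, j) + D (i, j - 1)) =
      D (i, j) + τ (i, j - 1) * A (i, j) - √2 * B (i, j) := by
    rw [eS.2, eE.1, eE.2]
    linear_combination (θ (i, j) * A (i + 1, j)) * q2
  have f3 : √2 * C (i, j) - (A (i, j + 1) - θ (i - 1, j) * D (i - 1, j)) =
      A (i, j) - τ (i, j) * D (i, j) - √2 * C (i, j) := by
    rw [eW.2, eN.1, eN.2]
    linear_combination (-(√2 * (√2 * A (i, j + 1) - τ (i, j) * B (i, j + 1)) - A (i, j))) * th1 +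
      A (i, j + 1) * q2 - A (i, j + 1) * ta
  have f4 : √2 * D (i, j) - (B (i, j + 1) - θ (i, j) * C (i + 1, j)) =
      B (i, j) - τ (i, j) * C (i, j) - √2 * D (i, j) := by
    have g1 : B (i, j + 1) = √2 * D (i, j) + τ (i, j) * C (i, j) := by
      rw [eN.1, eN.2]
      linear_combination (-(B (i, j + 1))) * q2 + B (i, j + 1) * ta
    have g2 : θ (i, j) * C (i + 1, j) = B (i, j) - √2 * D (i, j) := by
      rw [eE.1, eE.2]
      linear_combination (-(θ (i, j) * C (i + 1, j))) * q2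
    rw [g1, g2]; ring
  rw [f1] at l1
  rw [f2] at l2
  rw [f3, hτ] at l3
  rw [f4, hτ] at l4
  have key := four_cycle (A (i, j)) (B (i, j)) (C (i, j)) (D (i, j)) (τ (i, j - 1)) (h.τ2 _)
  unfold sqF
  rw [l1, l2, l3, l4]
  refine key.trans (le_of_sub_nonneg ?_)
  have e : (-(C (i, j) * -1 + τ (i, j - 1) * B (i, j) * -1 + √2 * A (i, j))) ^ 2 +
      (√2 * D (i - 1, j - 1) - (B (i - 1, j) - θ (i - 1, j) * C (i, j - 1))) ^ 2 +
      ((D (i, j) + τ (i, j - 1) * A (i, j) - √2 * B (i, j)) ^ 2 +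
      (√2 * C (i + 1, j - 1) - (A (i + 1, j) - θ (i, j) * D (i, j - 1))) ^ 2) +
      ((√2 * B (i - 1, j + 1) - (θ (i - 1, j) * A (i, j + 1) + D (i - 1, j))) ^ 2 +
      (A (i, j) - -τ (i, j - 1) * D (i, j) - √2 * C (i, j)) ^ 2) +
      ((√2 * A (i + 1, j + 1) - (θ (i, j) * B (i, j + 1) + C (i + 1, j))) ^ 2 +
      (B (i, j) - -τ (i, j - 1) * C (i, j) - √2 * D (i, j)) ^ 2) -
      ((C (i, j) + τ (i, j - 1) * B (i, j) - √2 * A (i, j)) ^ 2 +
      (D (i, j) + τ (i, j - 1) * A (i, j) - √2 * B (i, j)) ^ 2 +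
      (A (i, j) + τ (i, j - 1) * D (i, j) - √2 * C (i, j)) ^ 2 +
      (B (i, j) + τ (i, j - 1) * C (i, j) - √2 * D (i, j)) ^ 2) =
      (√2 * D (i - 1, j - 1) - (B (i - 1, j) - θ (i - 1, j) * C (i, j - 1))) ^ 2 +
      (√2 * C (i + 1, j - 1) - (A (i + 1, j) - θ (i, j) * D (i, j - 1))) ^ 2 +
      (√2 * B (i - 1, j + 1) - (θ (i - 1, j) * A (i, j + 1) + D (i - 1, j))) ^ 2 +
      (√2 * A (i + 1, j + 1) - (θ (i, j) * B (i, j + 1) + C (i + 1, j))) ^ 2 := by ring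
  rw [e]
  positivity

/-- Upper bound at a cell. -/
theorem lapf_le {f : Site} (hf : f ∈ P) : lap Hf f ≤ sqF A B C D f := by
  obtain ⟨i, j⟩ := f
  have h0 := sqF_nonneg A B C D (i, j)
  rw [lapf h hH hf]
  have := quad_lower (B (i, j)) (A (i, j)) (D (i, j)) (C (i, j)) (τ (i, j - 1)) (τ (i, j))
    (h.τ2 _) (h.τ2 _)
  unfold sqF at h0 ⊢
  have h2 : √2 ≤ 3 / 2 := by
    rw [Real.sqrt_le_left (by norm_num)]; norm_num
  nlinarith

/-- Lower bound at a site whose four edges are present. -/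
theorem lapS_ge {v : Site} (h1 : v ∈ P) (h2 : ((v.1 - 1, v.2 - 1) : Site) ∈ P) :
    -sqS A B C D v ≤ lap Hs v := by
  obtain ⟨i, j⟩ := v
  have h0 := sqS_nonneg A B C D (i, j)
  rw [lapS_int h hH h1 h2]
  have := quad_lower (A (i, j)) (B (i - 1, j)) (C (i, j - 1)) (D (i - 1, j - 1)) (θ (i - 1, j))
    (θ (i - 1, j - 1)) (h.θ2 _) (h.θ2 _)
  have e : sqS A B C D (i, j) = A (i, j) ^ 2 + B (i - 1, j) ^ 2 + C (i, j - 1) ^ 2 +
    D (i - 1, j - 1) ^ 2 := rfl
  rw [e] at h0 ⊢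
  have h2 : √2 ≤ 3 / 2 := by
    rw [Real.sqrt_le_left (by norm_num)]; norm_num
  nlinarith

/-- The values at a disorder. -/
theorem sqF_G {Q R G : Finset Site} (hE : Exg (Vx P) P τ θ Q R G) {f : Site} (hf : f ∈ G) :
    sqF A B C D f ≤ 3 * ∑ v ∈ cnr f, |lap Hs v| := by
  have hgood := hE.good f hf
  have hneg := hE.neg f hf
  have hin := hE.inR _ (hE.sub hf)
  obtain ⟨i, j⟩ := f
  simp only at hin hneg
  have np : ∀ x y : ℤ, ((x, y) : Site) ∈ cnr (i, j) → θ (x - 1, y) = θ (x - 1, y - 1) :=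
    fun x y hxy => hE.θc x y (hgood _ hxy)
  have t1 := np i j (by simp [mem_cnr])
  have t2 := np (i + 1) j (by simp [mem_cnr])
  have t3 := np i (j + 1) (by simp [mem_cnr])
  have t4 := np (i + 1) (j + 1) (by simp [mem_cnr])
  rw [add_sub_cancel_right] at t2 t3
  rw [add_sub_cancel_right, add_sub_cancel_right] at t4
  have key := branch_face h hH (i := i) (j := j) (fun x y h1 h2 h3 h4 =>
    hin (x, y) (by rw [abs_le]; simp only; lia) (by rw [abs_le]; simp only; lia)) t1 t2 t3 t4 hneg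
  have hs : lap Hs (i, j) + lap Hs (i + 1, j) + lap Hs (i, j + 1) + lap Hs (i + 1, j + 1) ≤
      ∑ v ∈ cnr (i, j), |lap Hs v| := by
    rw [sum_cnr]
    have := le_abs_self (lap Hs (i, j))
    have := le_abs_self (lap Hs (i + 1, j))
    have := le_abs_self (lap Hs (i, j + 1))
    have := le_abs_self (lap Hs (i + 1, j + 1))
    simp only
    linarith
  have h0 := sqF_nonneg A B C D (i, j)
  have h2 : √2 ≤ 17 / 12 := by
    rw [Real.sqrt_le_left (by norm_num)]; norm_num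
  nlinarith

/-- The Laplacian of `Hf` outside the cells. -/
theorem lapf_out {i j : ℤ} (hf : ((i, j) : Site) ∉ P) (hτ : τ (i, j) = τ (i, j - 1)) :
    lap Hf (i, j) ≤ 13 * ∑ v ∈ cnr (i, j), (hat P Hs Hf v - Hs v) := by
  have oA := hH.a i j
  have oB := hH.b i j
  have oC := hH.c i j
  have oD := hH.d i j
  have eN : Hf (i, j + 1) - Hf (i, j) ≤ -(C (i, j) ^ 2 + D (i, j) ^ 2) -
      2 * √2 * (τ (i, j) * (C (i, j) * D (i, j))) +
      5 / 2 * ((1 - ih P (i, j + 1)) * (Hs (i, j + 1) - Hf (i, j + 1)) +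
        (1 - ih P (i, j + 1)) * (Hs (i + 1, j + 1) - Hf (i, j + 1))) := by
    by_cases hn : ((i, j + 1) : Site) ∈ P
    · rw [ih_in (Or.inl hn), fN h hH (Or.inr hn)]; simp
    · rw [ih_out (by rw [add_sub_cancel_right]; tauto), eqV h hH hf hn, oC, oD]
      linarith [cross_le (C (i, j)) (D (i, j)) (τ (i, j)) (h.τ2 _)]
  have eS : Hf (i, j - 1) - Hf (i, j) ≤ -(A (i, j) ^ 2 + B (i, j) ^ 2) +
      2 * √2 * (τ (i, j - 1) * (A (i, j) * B (i, j))) +
      5 / 2 * ((1 - ih P (i, j)) * (Hs (i, j) - Hf (i, j)) +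
        (1 - ih P (i, j)) * (Hs (i + 1, j) - Hf (i, j))) := by
    by_cases hn : ((i, j - 1) : Site) ∈ P
    · rw [ih_in (Or.inr hn), fS h hH (Or.inr hn)]; simp
    · rw [ih_out (by tauto), eq_nbr h hH hf hn (by simp), oA, oB]
      have := cross_le (A (i, j)) (B (i, j)) (-τ (i, j - 1)) (by linarith [h.τ2 (i, j - 1)])
      linarith
  have eE : Hf (i + 1, j) - Hf (i, j) ≤ -(B (i, j) ^ 2 + D (i, j) ^ 2) +
      2 * √2 * (B (i, j) * D (i, j)) +
      5 / 2 * ((1 - iv P (i + 1, j)) * (Hs (i + 1, j) - Hf (i + 1, j)) +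
        (1 - iv P (i + 1, j)) * (Hs (i + 1, j + 1) - Hf (i + 1, j))) := by
    by_cases hn : ((i + 1, j) : Site) ∈ P
    · rw [iv_in (Or.inl hn), fE h hH (Or.inr hn)]; simp
    · rw [iv_out (by rw [add_sub_cancel_right]; tauto), eqH h hH hf hn, oB, oD]
      have := cross_le (B (i, j)) (D (i, j)) (-1) (by norm_num)
      linarith
  have eW : Hf (i - 1, j) - Hf (i, j) ≤ -(A (i, j) ^ 2 + C (i, j) ^ 2) +
      2 * √2 * (A (i, j) * C (i, j)) +
      5 / 2 * ((1 - iv P (i, j)) * (Hs (i, j) - Hf (i, j)) +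
        (1 - iv P (i, j)) * (Hs (i, j + 1) - Hf (i, j))) := by
    by_cases hn : ((i - 1, j) : Site) ∈ P
    · rw [iv_in (Or.inr hn), fW h hH (Or.inr hn)]; simp
    · rw [iv_out (by tauto), eq_nbr h hH hf hn (by simp), oA, oC]
      have := cross_le (A (i, j)) (C (i, j)) (-1) (by norm_num)
      linarith
  have q := quad_nonneg (B (i, j)) (A (i, j)) (D (i, j)) (C (i, j)) (τ (i, j - 1)) (h.τ2 _)
  rw [hτ] at eN
  have a1 := mh hH P i j
  have a2 := mh hH P i (j + 1)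
  have a3 := mv hH P i j
  have a4 := mv hH P (i + 1) j
  have b1 := (mh hH P (i - 1) j).1
  have b2 := (mv hH P i (j - 1)).1
  have b3 := (mh hH P (i + 1) j).2
  have b4 := (mv hH P (i + 1) (j - 1)).1
  have b5 := (mh hH P (i - 1) (j + 1)).1
  have b6 := (mv hH P i (j + 1)).2
  have b7 := (mh hH P (i + 1) (j + 1)).2
  have b8 := (mv hH P (i + 1) (j + 1)).2
  rw [sum_cnr]
  unfold lap hat
  simp only [add_sub_cancel_right]
  linarith [a1.1, a1.2, a2.1, a2.2, a3.1, a3.2, a4.1, a4.2]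

/-- Deep outside the cells `Hf` is harmonic. -/
theorem lapf_deep {f : Site} (hf : ∀ v ∈ cnr f, v ∉ Vx P) : lap Hf f = 0 := by
  have k : ∀ y v, v ∈ cnr f → v ∈ cnr y → y ∉ P := fun y v h1 h2 b =>
    hf v h1 (mem_biUnion.2 ⟨y, b, h2⟩)
  have h0 : f ∉ P := k f f (by simp [mem_cnr]) (by simp [mem_cnr])
  unfold lap
  rw [eq_nbr h hH (y := (f.1 + 1, f.2)) h0
      (k _ (f.1 + 1, f.2) (by simp [mem_cnr]) (by simp [mem_cnr])) (by simp),
    eq_nbr h hH (y := (f.1 - 1, f.2)) h0 (k _ f (by simp [mem_cnr]) (by simp [mem_cnr])) (by simp),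
    eq_nbr h hH (y := (f.1, f.2 + 1)) h0
      (k _ (f.1, f.2 + 1) (by simp [mem_cnr]) (by simp [mem_cnr])) (by simp),
    eq_nbr h hH (y := (f.1, f.2 - 1)) h0 (k _ f (by simp [mem_cnr]) (by simp [mem_cnr])) (by simp)]
  ring

/-- The Laplacian of `Hf` at a face without a disorder. -/
theorem lapf_reg {Q R G : Finset Site} (hE : Exg (Vx P) P τ θ Q R G) {f : Site} (hf : f ∉ R) :
    lap Hf f ≤ 13 * ∑ v ∈ cnr f, (hat P Hs Hf v - Hs v) := by
  have n0 : 0 ≤ ∑ v ∈ cnr f, (hat P Hs Hf v - Hs v) :=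
    sum_nonneg fun v _ => sub_nonneg.2 (le_hat hH P v)
  by_cases hn : ∃ v ∈ cnr f, v ∈ Vx P
  · have hτ := hE.τc f.1 f.2 hf hn
    by_cases hP : f ∈ P
    · linarith [lapf_nonpos h hH hP hτ]
    · exact lapf_out h hH hP hτ
  · rw [lapf_deep h hH fun x hx b => hn ⟨x, hx, b⟩]
    linarith

theorem lapf_np {Q R G : Finset Site} (hE : Exg (Vx P) P τ θ Q R G) {f : Site} (hf : f ∉ R)
    (hP : f ∈ P) : lap Hf f ≤ 0 :=
  lapf_nonpos h hH hP (hE.τc f.1 f.2 hf ⟨f, P144T.self_cnr f, P144S.H.sub_Vx hP⟩)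

end

end Vale.Agent.P144Y.H
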