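import Vale.Agent.P144Y.Defs
import Vale.Agent.P144S.H.Lap

/-!
The Laplacians of the `H`-function on the graph of the cells of an arbitrary finite set.
-/

namespace Vale.Agent.P144Y.H

open Finset Vale.Agent.P144
open Vale.Agent.P144S.H (ih_in ih_out iv_in iv_out)
open Vale.Agent.P144.AL (lap cnr mem_cnr quad_nonneg)

theorem ih_le (P : Finset Site) (x : Site) : 0 ≤ 1 - ih P x := by
  unfold ih; split_ifs <;> norm_num

theorem iv_le (P : Finset Site) (x : Site) : 0 ≤ 1 - iv P x := by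
  unfold iv; split_ifs <;> norm_num

section

variable {P : Finset Site} {τ θ A B C D Hs Hf : Site → ℝ} (h : Spr P τ θ A B C D)
  (hH : IsH A B C D Hs Hf)

include hH

/-- The values on the faces are below those at the corners. -/
theorem le_cnr {f v : Site} (hv : v ∈ cnr f) : Hf f ≤ Hs v := by
  obtain ⟨i, j⟩ := f
  rcases mem_cnr.1 hv with rfl | rfl | rfl | rfl
  · have := hH.a i j; have := sq_nonneg (A (i, j)); linarith
  · have := hH.b i j; have := sq_nonneg (B (i, j)); simp only; linarith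
  · have := hH.c i j; have := sq_nonneg (C (i, j)); simp only; linarith
  · have := hH.d i j; have := sq_nonneg (D (i, j)); simp only; linarith

theorem mh (P : Finset Site) (i j : ℤ) : 0 ≤ (1 - ih P (i, j)) * (Hs (i, j) - Hf (i, j)) ∧
    0 ≤ (1 - ih P (i, j)) * (Hs (i + 1, j) - Hf (i, j)) := by
  rw [hH.a, hH.b]
  exact ⟨mul_nonneg (ih_le P _) (sq_nonneg _), mul_nonneg (ih_le P _) (sq_nonneg _)⟩

theorem mv (P : Finset Site) (i j : ℤ) : 0 ≤ (1 - iv P (i, j)) * (Hs (i, j) - Hf (i, j)) ∧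
    0 ≤ (1 - iv P (i, j)) * (Hs (i, j + 1) - Hf (i, j)) := by
  rw [hH.a, hH.c]
  exact ⟨mul_nonneg (iv_le P _) (sq_nonneg _), mul_nonneg (iv_le P _) (sq_nonneg _)⟩

theorem le_hat (P : Finset Site) (x : Site) : Hs x ≤ hat P Hs Hf x := by
  obtain ⟨i, j⟩ := x
  have e1 := (mh hH P i j).2
  have e2 := (mh hH P (i - 1) j).1
  have e3 := (mv hH P i j).2
  have e4 := (mv hH P i (j - 1)).1
  unfold hat
  simp only
  linarith

include h

/-- Two adjacent faces outside carry the same value. -/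
theorem eqV {i j : ℤ} (h1 : ((i, j) : Site) ∉ P) (h2 : ((i, j + 1) : Site) ∉ P) :
    Hf (i, j + 1) = Hf (i, j) := by
  have e1 := hH.c i j
  have e2 := hH.a i (j + 1)
  rw [(h.V0 i j h1 h2).1] at e1
  linarith

theorem eqH {i j : ℤ} (h1 : ((i, j) : Site) ∉ P) (h2 : ((i + 1, j) : Site) ∉ P) :
    Hf (i + 1, j) = Hf (i, j) := by
  have e1 := hH.b i j
  have e2 := hH.a (i + 1) j
  rw [(h.H0 i j h1 h2).1] at e1
  linear_combination e1 - e2 + A (i + 1, j) ^ 2 * h.θ2 (i, j)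

theorem eq_nbr {x y : Site} (hx : x ∉ P) (hy : y ∉ P) (e : |x.1 - y.1| + |x.2 - y.2| = 1) :
    Hf y = Hf x := by
  obtain ⟨a, b⟩ := x
  obtain ⟨c, d⟩ := y
  have hc4 : (c = a + 1 ∧ d = b) ∨ (a = c + 1 ∧ d = b) ∨ (c = a ∧ d = b + 1) ∨
      (c = a ∧ b = d + 1) := by
    simp only at e
    rcases abs_cases (a - c) with h3 | h3 <;> rcases abs_cases (b - d) with h4 | h4 <;> lia
  rcases hc4 with ⟨rfl, rfl⟩ | ⟨rfl, rfl⟩ | ⟨rfl, rfl⟩ | ⟨rfl, rfl⟩
  · exact eqH h hH hx hy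
  · exact (eqH h hH hy hx).symm
  · exact eqV h hH hx hy
  · exact (eqV h hH hy hx).symm

/-- At a site which is not a corner of a cell the values agree with those of the faces. -/
theorem eq_out {f v : Site} (hv : v ∈ cnr f) (hP : v ∉ Vx P) : Hf f = Hs v := by
  obtain ⟨i, j⟩ := f
  rcases mem_cnr.1 hv with rfl | rfl | rfl | rfl
  · have := hH.a i j; rw [h.zA i j hP] at this; linarith
  · have := hH.b i j; rw [h.zB i j hP] at this; simp only; linarith
  · have := hH.c i j; rw [h.zC i j hP] at this; simp only; linarith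
  · have := hH.d i j; rw [h.zD i j hP] at this; simp only; linarith

theorem dN {i j : ℤ} (he : ((i, j) : Site) ∈ P ∨ ((i - 1, j) : Site) ∈ P) :
    Hs (i, j + 1) - Hs (i, j) = A (i, j) ^ 2 + B (i - 1, j) ^ 2 -
      2 * √2 * (θ (i - 1, j) * (A (i, j) * B (i - 1, j))) := by
  have e1 := h.H (i - 1) j (by rw [sub_add_cancel]; exact he.symm)
  rw [sub_add_cancel] at e1
  have e2 := hH.c i j
  have e3 := hH.a i j
  have e4 : C (i, j) = √2 * A (i, j) - θ (i - 1, j) * B (i - 1, j) := by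
    rw [e1.1]; linear_combination (√2 * A (i, j) - C (i, j)) * h.θ2 (i - 1, j)
  have e5 : Hs (i, j + 1) - Hs (i, j) = C (i, j) ^ 2 - A (i, j) ^ 2 := by linarith
  rw [e5, e4]
  linear_combination (A (i, j) ^ 2) * sqrt2_sq + (B (i - 1, j) ^ 2) * h.θ2 (i - 1, j)

theorem dS {i j : ℤ} (he : ((i, j - 1) : Site) ∈ P ∨ ((i - 1, j - 1) : Site) ∈ P) :
    Hs (i, j - 1) - Hs (i, j) = C (i, j - 1) ^ 2 + D (i - 1, j - 1) ^ 2 +
      2 * √2 * (θ (i - 1, j - 1) * (C (i, j - 1) * D (i - 1, j - 1))) := by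
  have e1 := h.H (i - 1) (j - 1) (by rw [sub_add_cancel]; exact he.symm)
  rw [sub_add_cancel] at e1
  have e2 := hH.c i (j - 1)
  have e3 := hH.a i (j - 1)
  rw [sub_add_cancel] at e2
  have e4 : A (i, j - 1) = √2 * C (i, j - 1) + θ (i - 1, j - 1) * D (i - 1, j - 1) := by
    rw [e1.2]; linear_combination (√2 * C (i, j - 1) - A (i, j - 1)) * h.θ2 (i - 1, j - 1)
  have e5 : Hs (i, j - 1) - Hs (i, j) = A (i, j - 1) ^ 2 - C (i, j - 1) ^ 2 := by linarith
  rw [e5, e4]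
  linear_combination (C (i, j - 1) ^ 2) * sqrt2_sq + (D (i - 1, j - 1) ^ 2) * h.θ2 (i - 1, j - 1)

theorem dE {i j : ℤ} (he : ((i, j) : Site) ∈ P ∨ ((i, j - 1) : Site) ∈ P) :
    Hs (i + 1, j) - Hs (i, j) = A (i, j) ^ 2 + C (i, j - 1) ^ 2 -
      2 * √2 * (A (i, j) * C (i, j - 1)) := by
  have e1 := h.V i (j - 1) (by rw [sub_add_cancel]; exact he.symm)
  rw [sub_add_cancel] at e1
  have e2 := hH.b i j
  have e3 := hH.a i j
  have e4 : B (i, j) = τ (i, j - 1) * (√2 * A (i, j) - C (i, j - 1)) := by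
    rw [e1.1]; linear_combination (-B (i, j)) * h.τ2 (i, j - 1)
  have e5 : Hs (i + 1, j) - Hs (i, j) = B (i, j) ^ 2 - A (i, j) ^ 2 := by linarith
  rw [e5, e4]
  linear_combination (A (i, j) ^ 2) * sqrt2_sq + (√2 * A (i, j) - C (i, j - 1)) ^ 2 * h.τ2 (i, j - 1)

theorem dW {i j : ℤ} (he : ((i - 1, j) : Site) ∈ P ∨ ((i - 1, j - 1) : Site) ∈ P) :
    Hs (i - 1, j) - Hs (i, j) = B (i - 1, j) ^ 2 + D (i - 1, j - 1) ^ 2 -
      2 * √2 * (B (i - 1, j) * D (i - 1, j - 1)) := by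
  have e1 := h.V (i - 1) (j - 1) (by rw [sub_add_cancel]; exact he.symm)
  rw [sub_add_cancel] at e1
  have e2 := hH.b (i - 1) j
  have e3 := hH.a (i - 1) j
  rw [sub_add_cancel] at e2
  have e4 : A (i - 1, j) = τ (i - 1, j - 1) * (√2 * B (i - 1, j) - D (i - 1, j - 1)) := by
    rw [e1.2]; linear_combination (-A (i - 1, j)) * h.τ2 (i - 1, j - 1)
  have e5 : Hs (i - 1, j) - Hs (i, j) = A (i - 1, j) ^ 2 - B (i - 1, j) ^ 2 := by linarith
  rw [e5, e4]
  linear_combination (B (i - 1, j) ^ 2) * sqrt2_sq +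
    (√2 * B (i - 1, j) - D (i - 1, j - 1)) ^ 2 * h.τ2 (i - 1, j - 1)

theorem fN {i j : ℤ} (he : ((i, j) : Site) ∈ P ∨ ((i, j + 1) : Site) ∈ P) :
    Hf (i, j + 1) - Hf (i, j) = -(C (i, j) ^ 2 + D (i, j) ^ 2) -
      2 * √2 * (τ (i, j) * (C (i, j) * D (i, j))) := by
  have e1 := h.V i j he
  have e2 := hH.c i j
  have e3 := hH.a i (j + 1)
  have e4 : A (i, j + 1) = √2 * C (i, j) + τ (i, j) * D (i, j) := by
    rw [e1.2, e1.1]
    linear_combination (-A (i, j + 1)) * sqrt2_sq + A (i, j + 1) * h.τ2 (i, j)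
  have e5 : Hf (i, j + 1) - Hf (i, j) = C (i, j) ^ 2 - A (i, j + 1) ^ 2 := by linarith
  rw [e5, e4]
  linear_combination (-(C (i, j) ^ 2)) * sqrt2_sq - (D (i, j) ^ 2) * h.τ2 (i, j)

theorem fS {i j : ℤ} (he : ((i, j) : Site) ∈ P ∨ ((i, j - 1) : Site) ∈ P) :
    Hf (i, j - 1) - Hf (i, j) = -(A (i, j) ^ 2 + B (i, j) ^ 2) +
      2 * √2 * (τ (i, j - 1) * (A (i, j) * B (i, j))) := by
  have e1 := h.V i (j - 1) (by rw [sub_add_cancel]; exact he.symm)
  have e2 := hH.c i (j - 1)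
  have e3 := hH.a i j
  rw [sub_add_cancel] at e1 e2
  have e5 : Hf (i, j - 1) - Hf (i, j) = A (i, j) ^ 2 - C (i, j - 1) ^ 2 := by linarith
  rw [e5, e1.1]
  linear_combination (-(A (i, j) ^ 2)) * sqrt2_sq - (B (i, j) ^ 2) * h.τ2 (i, j - 1)

theorem fE {i j : ℤ} (he : ((i, j) : Site) ∈ P ∨ ((i + 1, j) : Site) ∈ P) :
    Hf (i + 1, j) - Hf (i, j) = -(B (i, j) ^ 2 + D (i, j) ^ 2) +
      2 * √2 * (B (i, j) * D (i, j)) := by
  have e1 := h.H i j he
  have e2 := hH.b i j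
  have e3 := hH.a (i + 1) j
  have e4 : A (i + 1, j) = θ (i, j) * (√2 * B (i, j) - D (i, j)) := by
    rw [e1.2, e1.1]
    linear_combination (-(θ (i, j) ^ 2 * A (i + 1, j))) * sqrt2_sq - A (i + 1, j) * h.θ2 (i, j)
  have e5 : Hf (i + 1, j) - Hf (i, j) = B (i, j) ^ 2 - A (i + 1, j) ^ 2 := by linarith
  rw [e5, e4]
  linear_combination (-(√2 * B (i, j) - D (i, j)) ^ 2) * h.θ2 (i, j) - B (i, j) ^ 2 * sqrt2_sq

theorem fW {i j : ℤ} (he : ((i, j) : Site) ∈ P ∨ ((i - 1, j) : Site) ∈ P) :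
    Hf (i - 1, j) - Hf (i, j) = -(A (i, j) ^ 2 + C (i, j) ^ 2) +
      2 * √2 * (A (i, j) * C (i, j)) := by
  have e1 := h.H (i - 1) j (by rw [sub_add_cancel]; exact he.symm)
  have e2 := hH.b (i - 1) j
  have e3 := hH.a i j
  rw [sub_add_cancel] at e1 e2
  have e5 : Hf (i - 1, j) - Hf (i, j) = A (i, j) ^ 2 - B (i - 1, j) ^ 2 := by linarith
  rw [e5, e1.1]
  linear_combination (-(√2 * A (i, j) - C (i, j)) ^ 2) * h.θ2 (i - 1, j) - A (i, j) ^ 2 * sqrt2_sq

/-- The Laplacian of `Hf` at a cell. -/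
theorem lapf {i j : ℤ} (hf : ((i, j) : Site) ∈ P) :
    lap Hf (i, j) = -(2 * (B (i, j) ^ 2 + A (i, j) ^ 2 + D (i, j) ^ 2 + C (i, j) ^ 2) -
      2 * √2 * (τ (i, j - 1) * (B (i, j) * A (i, j)) - τ (i, j) * (D (i, j) * C (i, j)) +
        B (i, j) * D (i, j) + A (i, j) * C (i, j))) := by
  have e1 := fN h hH (Or.inl hf)
  have e2 := fS h hH (Or.inl hf)
  have e3 := fE h hH (Or.inl hf)
  have e4 := fW h hH (Or.inl hf)
  unfold lap
  simp only
  linear_combination e1 + e2 + e3 + e4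

theorem lapf_nonpos {i j : ℤ} (hf : ((i, j) : Site) ∈ P) (hτ : τ (i, j) = τ (i, j - 1)) :
    lap Hf (i, j) ≤ 0 := by
  rw [lapf h hH hf, hτ]
  have := quad_nonneg (B (i, j)) (A (i, j)) (D (i, j)) (C (i, j)) (τ (i, j - 1)) (h.τ2 _)
  linarith

/-- The sum over the four directions at a site where no spin is inserted. -/
theorem lap_low {i j : ℤ} (hθ : θ (i - 1, j) = θ (i - 1, j - 1)) :
    0 ≤ (iv P (i, j) * (Hs (i, j + 1) - Hs (i, j)) -
        4 / 5 * ((1 - iv P (i, j)) * (Hs (i, j) - Hf (i, j)))) +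
      (iv P (i, j - 1) * (Hs (i, j - 1) - Hs (i, j)) -
        4 / 5 * ((1 - iv P (i, j - 1)) * (Hs (i, j) - Hf (i, j - 1)))) +
      (ih P (i, j) * (Hs (i + 1, j) - Hs (i, j)) -
        4 / 5 * ((1 - ih P (i, j)) * (Hs (i, j) - Hf (i, j)))) +
      (ih P (i - 1, j) * (Hs (i - 1, j) - Hs (i, j)) -
        4 / 5 * ((1 - ih P (i - 1, j)) * (Hs (i, j) - Hf (i - 1, j)))) := by
  have t2 := h.θ2 (i - 1, j)
  refine P144G.alg (a := A (i, j)) (b := θ (i - 1, j) * B (i - 1, j)) (c := C (i, j - 1))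
    (d := θ (i - 1, j) * D (i - 1, j - 1)) ?_ ?_ ?_ ?_
  · by_cases hn : ((i, j) : Site) ∈ P ∨ ((i - 1, j) : Site) ∈ P
    · left
      rw [iv_in hn, dN h hH hn]
      linear_combination (-B (i - 1, j) ^ 2) * t2
    · right
      have e1 := h.H0 (i - 1) j (fun h1 => hn (Or.inr h1))
        (by rw [sub_add_cancel]; exact fun h1 => hn (Or.inl h1))
      rw [sub_add_cancel] at e1
      rw [iv_out hn, e1.1, hH.a]
      exact ⟨by linear_combination A (i, j) * t2, by ring⟩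
  · by_cases hn : ((i, j - 1) : Site) ∈ P ∨ ((i - 1, j - 1) : Site) ∈ P
    · left
      rw [iv_in hn, dS h hH hn, ← hθ]
      linear_combination (-D (i - 1, j - 1) ^ 2) * t2
    · right
      have e1 := h.H0 (i - 1) (j - 1) (fun h1 => hn (Or.inr h1))
        (by rw [sub_add_cancel]; exact fun h1 => hn (Or.inl h1))
      have e2 := hH.c i (j - 1)
      rw [sub_add_cancel] at e1 e2
      rw [iv_out hn, e1.2, e2, ← hθ]
      exact ⟨by linear_combination (-C (i, j - 1)) * t2, by ring⟩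
  · by_cases hn : ((i, j) : Site) ∈ P ∨ ((i, j - 1) : Site) ∈ P
    · left
      rw [ih_in hn, dE h hH hn]
      ring
    · right
      have e1 := h.V0 i (j - 1) (fun h1 => hn (Or.inr h1))
        (by rw [sub_add_cancel]; exact fun h1 => hn (Or.inl h1))
      rw [sub_add_cancel] at e1
      rw [ih_out hn, hH.a]
      exact ⟨e1.1, by ring⟩
  · by_cases hn : ((i - 1, j) : Site) ∈ P ∨ ((i - 1, j - 1) : Site) ∈ P
    · left
      rw [ih_in hn, dW h hH hn]
      linear_combination (-B (i - 1, j) ^ 2 - D (i - 1, j - 1) ^ 2 +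
        2 * √2 * (B (i - 1, j) * D (i - 1, j - 1))) * t2
    · right
      have e1 := h.V0 (i - 1) (j - 1) (fun h1 => hn (Or.inr h1))
        (by rw [sub_add_cancel]; exact fun h1 => hn (Or.inl h1))
      have e2 := hH.b (i - 1) j
      rw [sub_add_cancel] at e1 e2
      rw [ih_out hn, e1.2, e2]
      exact ⟨rfl, by linear_combination (4 / 5) * B (i - 1, j) ^ 2 * t2⟩

theorem lap_hat {x : Site} (hθ : θ (x.1 - 1, x.2) = θ (x.1 - 1, x.2 - 1)) :
    hat P Hs Hf x - Hs x ≤ lap (hat P Hs Hf) x := by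
  obtain ⟨i, j⟩ := x
  have k := lap_low h hH hθ
  have a1 := (mh hH P (i + 1) j).2
  have a2 := (mv hH P (i + 1) j).2
  have a3 := (mv hH P (i + 1) (j - 1)).1
  have b1 := (mh hH P (i - 1 - 1) j).1
  have b2 := (mv hH P (i - 1) j).2
  have b3 := (mv hH P (i - 1) (j - 1)).1
  have c1 := (mh hH P i (j + 1)).2
  have c2 := (mh hH P (i - 1) (j + 1)).1
  have c3 := (mv hH P i (j + 1)).2
  have d1 := (mh hH P i (j - 1)).2
  have d2 := (mh hH P (i - 1) (j - 1)).1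
  have d3 := (mv hH P i (j - 1 - 1)).1
  unfold lap hat
  simp only [add_sub_cancel_right, sub_add_cancel]
  linarith

theorem eq_cn {x y : Site} (hx : x ∉ P) (hc : Cn P x y) : y ∉ P ∧ Hf y = Hf x := by
  induction hc with
  | refl => exact ⟨hx, rfl⟩
  | tail _ h2 ih => exact ⟨h2.1, (eq_nbr h hH ih.1 h2.1 h2.2).trans ih.2⟩

end

/-- The Laplacians. -/
theorem slap : SLap := by
  rintro P τ θ A B C D Hs Hf h hH ⟨i, j⟩
  exact ⟨le_hat hH P _, lap_hat h hH, lapf_nonpos h hH, fun hx y hy => (eq_cn h hH hx hy).2,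
    fun hx f hf => eq_out h hH hf hx⟩

end Vale.Agent.P144Y.H
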